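import Vale.Agent.P181.MathlibUsed

set_option linter.all false

section

section

set_option autoImplicit false

namespace Vale.Agent.P181

open Polynomial Finset

section Basic

variable {M : Type*} [AddCommGroup M] [Module ℂ M]

/-- If a polynomial curve lies in a subspace then so do all its coefficients. -/
lemma coeff_mem_of_forall (S : Submodule ℂ M) (n : ℕ) (c : ℕ → M)
    (h : ∀ t : ℂ, ∑ j ∈ range n, t ^ j • c j ∈ S) (j : ℕ) (hj : j < n) : c j ∈ S := by
  rw [← Submodule.Quotient.mk_eq_zero S, ← Module.forall_dual_apply_eq_zero_iff ℂ]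
  intro φ
  let p : ℂ[X] := ∑ i ∈ range n, C (φ (Submodule.Quotient.mk (c i))) * X ^ i
  have hp : p = 0 := by
    apply Polynomial.funext
    intro t
    have h1 : φ (Submodule.Quotient.mk (∑ j ∈ range n, t ^ j • c j)) = 0 := by
      rw [(Submodule.Quotient.mk_eq_zero S).2 (h t), map_zero]
    have h2 : φ (S.mkQ (∑ j ∈ range n, t ^ j • c j)) = 0 := h1
    rw [map_sum, map_sum] at h2
    simp only [map_smul, smul_eq_mul] at h2
    simp only [p, eval_finsetSum, eval_mul, eval_C, eval_pow, eval_X, eval_zero]
    rw [← h2]
    apply Finset.sum_congr rfl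
    intro i _
    rw [mul_comm]
    rfl
  have := congrArg (fun q => q.coeff j) hp
  simp only [p, finsetSum_coeff, coeff_C_mul, coeff_X_pow, coeff_zero, mul_ite, mul_one,
    mul_zero] at this
  rw [Finset.sum_ite_eq] at this
  simpa only [mem_range, hj, ↓reduceIte] using this

end Basic

variable {A : Type*} [CommRing A] [Algebra ℂ A]

/-- Every product of `k` elements of `L` is a combination of `k`-th powers of elements of `L`. -/
lemma pow_le_span_pow (L : Submodule ℂ A) (k : ℕ) :
    L ^ k ≤ Submodule.span ℂ ((fun x => x ^ k) '' (L : Set A)) := by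
  induction k with
  | zero =>
    rw [pow_zero, Submodule.one_eq_span]
    apply Submodule.span_mono
    rintro _ rfl
    exact ⟨0, L.zero_mem, by simp⟩
  | succ k ih =>
    rw [pow_succ, Submodule.mul_le]
    intro p hp m hm
    have hp' := ih hp
    clear hp
    induction hp' using Submodule.span_induction with
    | mem x hx =>
      obtain ⟨y, hy, rfl⟩ := hx
      have key := coeff_mem_of_forall
        (Submodule.span ℂ ((fun x => x ^ (k + 1)) '' (L : Set A))) (k + 2)
        (fun j => ((k + 1).choose j : ℂ) • (m ^ j * y ^ (k + 1 - j))) ?_ 1 (by omega)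
      · have h2 : ((k + 1).choose 1 : ℂ) ≠ 0 := by
          rw [Nat.choose_one_right]
          exact_mod_cast Nat.succ_ne_zero k
        have h3 := (Submodule.smul_mem_iff _ h2).1 key
        simpa only [mul_comm, pow_one, add_tsub_cancel_right] using h3
      · intro t
        apply Submodule.subset_span
        refine ⟨t • m + y, L.add_mem (L.smul_mem _ hm) hy, ?_⟩
        simp only
        rw [add_pow]
        apply Finset.sum_congr rfl
        intro j _
        simp only [Algebra.smul_def, map_natCast, map_pow]
        ring
    | zero => simp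
    | add x y _ _ hx hy => rw [add_mul]; exact Submodule.add_mem _ hx hy
    | smul c x _ hx => rw [smul_mul_assoc]; exact Submodule.smul_mem _ _ hx

/-- Polynomial curves of degree at most `d` in `A`. -/
def IsCurve (d : ℕ) (u : ℂ → A) : Prop :=
  ∃ c : ℕ → A, ∀ s : ℂ, u s = ∑ l ∈ range (d + 1), s ^ l • c l

lemma isCurve_const (x : A) : IsCurve 0 (fun _ => x) :=
  ⟨fun _ => x, fun s => by simp⟩

lemma isCurve_pow (θ ζ P : A) (n : ℕ) : IsCurve n (fun s => (θ + s • ζ) ^ n * P) := by
  refine ⟨fun l => (n.choose l : ℂ) • (ζ ^ l * θ ^ (n - l) * P), fun s => ?_⟩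
  have h : (θ + s • ζ) ^ n = ∑ j ∈ range (n + 1), (s • ζ) ^ j * θ ^ (n - j) * (n.choose j : A) := by
    rw [add_comm θ, add_pow]
  simp only [h, Finset.sum_mul]
  apply Finset.sum_congr rfl
  intro j _
  simp only [Algebra.smul_def, map_natCast, map_pow]
  ring

lemma exists_poly {a : ℕ} (F : MultilinearMap ℂ (fun _ : Fin a => A) ℂ)
    (u : Fin a → ℂ → A) (d : Fin a → ℕ) (hu : ∀ i, IsCurve (d i) (u i)) :
    ∃ p : ℂ[X], p.natDegree ≤ ∑ i, d i ∧ ∀ s, p.eval s = F (fun i => u i s) := by
  choose c hc using hu
  refine ⟨∑ r ∈ Fintype.piFinset (fun i => range (d i + 1)),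
    C (F (fun i => c i (r i))) * X ^ (∑ i, r i), ?_, ?_⟩
  · apply Polynomial.natDegree_sum_le_of_forall_le
    intro r hr
    refine (natDegree_C_mul_X_pow_le _ _).trans ?_
    apply Finset.sum_le_sum
    intro i _
    have := Fintype.mem_piFinset.1 hr i
    rw [Finset.mem_range] at this
    omega
  · intro s
    have : (fun i => u i s) = fun i => ∑ l ∈ range (d i + 1), s ^ l • c i l := by
      funext i; exact hc i s
    rw [this, MultilinearMap.map_sum_finset, eval_finsetSum]
    apply Finset.sum_congr rfl
    intro r _
    rw [MultilinearMap.map_smul_univ, Finset.prod_pow_eq_pow_sum, eval_mul, eval_C, eval_pow,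
      eval_X, smul_eq_mul, mul_comm]

lemma first_order {a : ℕ} (F : MultilinearMap ℂ (fun _ : Fin a => A) ℂ) (x y : Fin a → A)
    (h : ∀ t : ℂ, F (fun i => x i + t • y i) = 0) :
    ∑ i, F (Function.update x i (y i)) = 0 := by
  let p : ℂ[X] := ∑ s : Finset (Fin a), C (F (s.piecewise x y)) * X ^ (sᶜ).card
  have hp : p = 0 := by
    apply Polynomial.funext
    intro t
    rw [eval_zero, ← h t]
    have h1 : (fun i => x i + t • y i) = x + t • y := rfl
    rw [h1, MultilinearMap.map_add_univ]
    simp only [p, eval_finsetSum, eval_mul, eval_C, eval_pow, eval_X]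
    apply Finset.sum_congr rfl
    intro s _
    have h2 : s.piecewise x (t • y) = sᶜ.piecewise (fun i => t • (s.piecewise x y) i)
        (s.piecewise x y) := by
      funext i
      by_cases hi : i ∈ s
      · simp [Finset.piecewise, hi]
      · simp [Finset.piecewise, hi]
    rw [h2, MultilinearMap.map_piecewise_smul]
    simp [mul_comm]
  have h1 := congrArg (fun q => q.coeff 1) hp
  simp only [p, finsetSum_coeff, coeff_C_mul, coeff_X_pow, coeff_zero, mul_ite, mul_one,
    mul_zero] at h1
  rw [← Finset.sum_filter] at h1
  rw [← h1]
  apply Finset.sum_bij (fun i _ => ({i} : Finset (Fin a))ᶜ)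
  · intro i _
    simp
  · intro i _ j _ hij
    simpa using hij
  · intro s hs
    rw [Finset.mem_filter] at hs
    obtain ⟨i, hi⟩ := Finset.card_eq_one.1 hs.2.symm
    exact ⟨i, Finset.mem_univ i, by rw [← hi, compl_compl]⟩
  · intro i _
    congr 1
    funext j
    by_cases hj : j = i
    · subst hj; simp [Finset.piecewise]
    · simp [Finset.piecewise, hj]

/-- **Claim A.** -/
theorem claimA (L : Submodule ℂ A) {a : ℕ} (F : MultilinearMap ℂ (fun _ : Fin a => A) ℂ)
    (c κ : Fin a → ℕ) (hκ : ∀ j, ∑ i ∈ Finset.Iic j, κ i ≤ c j)
    (h : ∀ ξ ∈ L, ∀ P : Fin a → A, (∀ i, P i ∈ L ^ (c i - κ i)) →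
      F (fun i => ξ ^ κ i * P i) = 0) :
    ∀ P : Fin a → A, (∀ i, P i ∈ L ^ c i) → F P = 0 := by
  have main : ∀ n : ℕ, n ≤ a → ∀ ξ ∈ L, ∀ P : Fin a → A,
      (∀ i : Fin a, (i : ℕ) < a - n → P i ∈ L ^ (c i - κ i)) →
      (∀ i : Fin a, a - n ≤ (i : ℕ) → P i ∈ L ^ c i) →
      F (fun i => if (i : ℕ) < a - n then ξ ^ κ i * P i else P i) = 0 := by
    intro n
    induction n with
    | zero =>
      intro _ ξ hξ P hP _
      have h1 := h ξ hξ P (fun i => hP i (by simp))
      simpa only [tsub_zero, Fin.is_lt, ↓reduceIte] using h1
    | succ n ih =>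
      intro hn ξ hξ P hP1 hP2
      have ihn := ih (by omega)
      set j : ℕ := a - (n + 1) with hjdef
      have hja : j < a := by omega
      have hj1 : a - n = j + 1 := by omega
      rw [hj1] at ihn
      let j' : Fin a := ⟨j, hja⟩
      let base : Fin a → A := fun i => if (i : ℕ) < j then ξ ^ κ i * P i else P i
      let G : A →ₗ[ℂ] ℂ := F.toLinearMap base j'
      have hG : ∀ x, G x = F (Function.update base j' x) := fun x => rfl
      have hPj : P j' ∈ L ^ c j' := hP2 j' le_rfl
      have hker : L ^ c j' ≤ LinearMap.ker G := by
        refine (pow_le_span_pow L _).trans ?_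
        rw [Submodule.span_le]
        rintro _ ⟨θ, hθ, rfl⟩
        simp only [SetLike.mem_coe, LinearMap.mem_ker]
        set ζ : A := ξ - θ with hζ
        have hζL : ζ ∈ L := L.sub_mem hξ hθ
        have hsum : ∑ i ∈ Finset.Iic j', κ i ≤ c j' := hκ j'
        have hκj : κ j' ≤ c j' :=
          (Finset.single_le_sum (f := κ) (fun _ _ => Nat.zero_le _)
            (Finset.mem_Iic.2 le_rfl)).trans hsum
        let u : Fin a → ℂ → A := fun i s =>
          if (i : ℕ) < j then (θ + s • ζ) ^ κ i * P i else if i = j' then θ ^ c j' else P i
        let d : Fin a → ℕ := fun i => if (i : ℕ) < j then κ i else 0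
        have hu : ∀ i, IsCurve (d i) (u i) := by
          intro i
          by_cases hi : (i : ℕ) < j
          · have h1 : u i = fun s => (θ + s • ζ) ^ κ i * P i := by
              funext s; simp [u, hi]
            have h2 : d i = κ i := by simp [d, hi]
            rw [h1, h2]
            exact isCurve_pow _ _ _ _
          · have h2 : d i = 0 := by simp [d, hi]
            rw [h2]
            have h1 : u i = fun _ => (if i = j' then θ ^ c j' else P i) := by
              funext s; simp [u, hi]
            rw [h1]
            exact isCurve_const _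
        obtain ⟨p, hpd, hp⟩ := exists_poly F u d hu
        let v : ℕ → Fin a → ℂ → A := fun l i s =>
          if (i : ℕ) < j then (θ + s • ζ) ^ κ i * P i
          else if i = j' then (θ + s • ζ) ^ (c j' - l) * ζ ^ l else P i
        have hv : ∀ l, ∃ q : ℂ[X], ∀ s, q.eval s = F (fun i => v l i s) := by
          intro l
          obtain ⟨q, -, hq⟩ := exists_poly F (v l)
            (fun i => if (i : ℕ) < j then κ i else if i = j' then c j' - l else 0) (by
              intro i
              by_cases hi : (i : ℕ) < j
              · have h1 : v l i = fun s => (θ + s • ζ) ^ κ i * P i := by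
                  funext s; simp [v, hi]
                simp only [hi, if_true]
                rw [h1]
                exact isCurve_pow _ _ _ _
              · by_cases hij : i = j'
                · have h1 : v l j' = fun s => (θ + s • ζ) ^ (c j' - l) * ζ ^ l := by
                    funext s; simp only [lt_self_iff_false, ↓reduceIte, v, j']
                  have h2 : ¬ ((j' : Fin a) : ℕ) < j := by simp [j']
                  simp only [hij, h2, if_true, if_false]
                  rw [h1]
                  exact isCurve_pow _ _ _ _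
                · have h1 : v l i = fun _ => P i := by
                    funext s; simp [v, hi, hij]
                  simp only [hi, if_false, hij]
                  rw [h1]
                  exact isCurve_const _)
          exact ⟨q, hq⟩
        choose q hq using hv
        have hq0 : ∀ l, l ≤ c j' - κ j' → q l = 0 := by
          intro l hl
          apply Polynomial.funext
          intro s
          rw [hq, eval_zero]
          have hL' : θ + s • ζ ∈ L := L.add_mem hθ (L.smul_mem _ hζL)
          have h1 := ihn (θ + s • ζ) hL'
            (fun i => if i = j' then (θ + s • ζ) ^ (c j' - l - κ j') * ζ ^ l else P i) ?_ ?_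
          · rw [← h1]
            congr 1
            funext i
            by_cases hij : i = j'
            · subst hij
              have h2 : ((j' : Fin a) : ℕ) = j := rfl
              simp only [v, h2, lt_irrefl, if_false, if_true, Nat.lt_succ_self]
              rw [← mul_assoc, ← pow_add]
              congr 2
              (clear * - hja hκj hl; omega)
            · have hij' : (i : ℕ) ≠ j := fun hh => hij (Fin.ext hh)
              by_cases hi : (i : ℕ) < j
              · simp only [hi, ↓reduceIte, Nat.lt_succ_of_lt hi, hij, v]
              · have : ¬ (i : ℕ) < j + 1 := by omega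
                simp only [hi, ↓reduceIte, hij, this, v]
          · intro i hi
            by_cases hij : i = j'
            · subst hij
              simp only [if_true]
              have h3 : c j' - κ j' = (c j' - l - κ j') + l := by omega
              rw [h3, pow_add]
              exact Submodule.mul_mem_mul (Submodule.pow_mem_pow _ hL' _)
                (Submodule.pow_mem_pow _ hζL _)
            · have hij' : (i : ℕ) ≠ j := fun hh => hij (Fin.ext hh)
              simp only [hij, if_false]
              exact hP1 i (by omega)
          · intro i hi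
            have hij : i ≠ j' := by
              rintro rfl
              simp only [add_le_iff_nonpos_right, nonpos_iff_eq_zero, one_ne_zero, j'] at hi
            simp only [hij, if_false]
            exact hP2 i (by omega)
        have hpq : p = ∑ l ∈ range (c j' + 1),
            C (((c j').choose l : ℂ) * (-1) ^ l) * X ^ l * q l := by
          apply Polynomial.funext
          intro s
          let Gs : A →ₗ[ℂ] ℂ := F.toLinearMap (fun i => u i s) j'
          have h1 : F (fun i => u i s) = Gs (θ ^ c j') := by
            change _ = F (Function.update (fun i => u i s) j' (θ ^ c j'))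
            congr 1
            symm
            rw [Function.update_eq_self_iff]
            simp [u, j']
          have h2 : ∀ l, F (fun i => v l i s) = Gs ((θ + s • ζ) ^ (c j' - l) * ζ ^ l) := by
            intro l
            change _ = F (Function.update (fun i => u i s) j' _)
            congr 1
            funext i
            by_cases hij : i = j'
            · subst hij
              simp only [lt_self_iff_false, ↓reduceIte, Function.update_self, v, j']
            · simp only [hij, ↓reduceIte, ne_eq, not_false_eq_true, Function.update_of_ne, v, u]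
          have h3 : θ ^ c j' = ∑ l ∈ range (c j' + 1),
              (((c j').choose l : ℂ) * (-1) ^ l * s ^ l) •
                ((θ + s • ζ) ^ (c j' - l) * ζ ^ l) := by
            have h4 : θ = (-s) • ζ + (θ + s • ζ) := by
              rw [neg_smul]; abel
            calc θ ^ c j' = ((-s) • ζ + (θ + s • ζ)) ^ c j' := by rw [← h4]
              _ = _ := by
                rw [add_pow]
                apply Finset.sum_congr rfl
                intro l _
                simp only [Algebra.smul_def, map_natCast, map_pow, map_mul, map_neg, map_one]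
                rw [neg_mul, neg_pow]
                ring_nf
          rw [hp, h1, h3, map_sum, eval_finsetSum]
          apply Finset.sum_congr rfl
          intro l _
          rw [map_smul, ← h2, ← hq]
          simp only [eval_mul, eval_C, eval_pow, eval_X, smul_eq_mul]
        have hdvd : X ^ (c j' - κ j' + 1) ∣ p := by
          rw [hpq]
          apply Finset.dvd_sum
          intro l _
          by_cases hl : l ≤ c j' - κ j'
          · rw [hq0 l hl]; simp only [map_mul, map_natCast, map_pow, map_neg, map_one, mul_zero, dvd_zero]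
          · have h5 : c j' - κ j' + 1 ≤ l := by omega
            rw [mul_comm (C _) (X ^ l), mul_assoc]
            exact Dvd.dvd.mul_right (pow_dvd_pow X h5) _
        have hdeg : p.natDegree < c j' - κ j' + 1 := by
          have h6 : ∑ i, d i + κ j' ≤ ∑ i ∈ Finset.Iic j', κ i := by
            have h7 : Finset.Iic j' = insert j' (Finset.univ.filter (fun i : Fin a => (i : ℕ) < j)) := by
              ext i
              simp only [Finset.mem_Iic, Finset.mem_insert, Finset.mem_filter, Finset.mem_univ,
                true_and, Fin.le_def, Fin.ext_iff, j']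
              omega
            rw [h7, Finset.sum_insert (by simp only [mem_filter, mem_univ, lt_self_iff_false, and_false, not_false_eq_true, j']), Finset.sum_filter, add_comm]
          omega
        have hp0 : p = 0 := by
          apply Polynomial.eq_zero_of_dvd_of_natDegree_lt hdvd
          rw [natDegree_X_pow]
          exact hdeg
        have h8 := hp 1
        rw [hp0, eval_zero] at h8
        rw [hG, h8]
        congr 1
        funext i
        by_cases hij : i = j'
        · subst hij
          simp [u, j']
        · rw [Function.update_of_ne hij]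
          simp only [base, u, hij, if_false, one_smul, hζ, add_sub_cancel]
      have hfin : F base = 0 := by
        have h1 := hker hPj
        rw [LinearMap.mem_ker, hG] at h1
        have h2 : Function.update base j' (P j') = base := by
          rw [Function.update_eq_self_iff]
          simp [base, j']
        rwa [h2] at h1
      exact hfin
  intro P hP
  have h1 := main a le_rfl 0 L.zero_mem P (fun i hi => by omega) (fun i _ => hP i)
  simpa only [tsub_self, not_lt_zero, ↓reduceIte] using h1

/-- `F` vanishes on the diagonal at all products of `b` elements of `L`. -/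
def IsK (L : Submodule ℂ A) {a : ℕ} (b : ℕ)
    (F : MultilinearMap ℂ (fun _ : Fin a => A) ℂ) : Prop :=
  ∀ m : Multiset A, m.card = b → (∀ x ∈ m, x ∈ L) → F (fun _ => m.prod) = 0

/-- Symmetric multilinear forms. -/
def IsSymm {a : ℕ} (F : MultilinearMap ℂ (fun _ : Fin a => A) ℂ) : Prop :=
  ∀ (σ : Equiv.Perm (Fin a)) (P : Fin a → A), F (fun i => P (σ i)) = F P

/-- Every binary binomial form splits into linear forms. -/
def HasRoots (L : Submodule ℂ A) : Prop :=
  ∀ k : ℕ, 0 < k → ∀ x ∈ L, ∀ y ∈ L, ∀ t : ℂ,
    ∃ m : Multiset A, m.card = k ∧ (∀ z ∈ m, z ∈ L) ∧ m.prod = x ^ k + t • y ^ k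

/-- Multiplying by `Q` in all arguments. -/
def mulArg {a : ℕ} (F : MultilinearMap ℂ (fun _ : Fin a => A) ℂ) (Q : Fin a → A) :
    MultilinearMap ℂ (fun _ : Fin a => A) ℂ :=
  F.compLinearMap (fun i => LinearMap.mulLeft ℂ (Q i))

lemma mulArg_apply {a : ℕ} (F : MultilinearMap ℂ (fun _ : Fin a => A) ℂ) (Q P : Fin a → A) :
    mulArg F Q P = F (fun i => Q i * P i) := rfl

lemma IsSymm.mulArg_const {a : ℕ} {F : MultilinearMap ℂ (fun _ : Fin a => A) ℂ}
    (hF : IsSymm F) (Q : A) : IsSymm (mulArg F (fun _ => Q)) := by
  intro σ P
  simp only [mulArg_apply]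
  exact hF σ (fun i => Q * P i)

/-- A submodule of a domain containing the roots of unity has roots. -/
lemma hasRoots_of_forall_field {ι : Type*} (L : Submodule ℂ (ι → ℂ)) : HasRoots L := by
  intro k hk x hx y hy t
  obtain ⟨s, hs⟩ := IsAlgClosed.exists_pow_nat_eq (-t) hk
  obtain ⟨ζ, hζ⟩ : ∃ ζ : ℂ, IsPrimitiveRoot ζ k :=
    ⟨_, Complex.isPrimitiveRoot_exp k hk.ne'⟩
  refine ⟨(nthRootsFinset k (1 : ℂ)).val.map (fun ω => x - (ω * s) • y), ?_, ?_, ?_⟩
  · rw [Multiset.card_map, Finset.card_val, hζ.card_nthRootsFinset]
  · intro z hz
    obtain ⟨ω, -, rfl⟩ := Multiset.mem_map.1 hz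
    exact L.sub_mem hx (L.smul_mem _ hy)
  · have h1 : (Multiset.map (fun ω => x - (ω * s) • y) (nthRootsFinset k (1 : ℂ)).val).prod =
        ∏ ω ∈ nthRootsFinset k (1 : ℂ), (x - (ω * s) • y) := rfl
    rw [h1]
    funext i
    rw [Finset.prod_apply]
    have h2 := hζ.pow_sub_pow_eq_prod_sub_mul (x i) (s * y i) hk
    rw [mul_pow, hs] at h2
    simp only [Pi.sub_apply, Pi.smul_apply, Pi.add_apply, Pi.pow_apply, smul_eq_mul]
    rw [neg_mul, sub_neg_eq_add] at h2
    rw [h2]
    apply Finset.prod_congr rfl
    intro ω _
    ring

end Vale.Agent.P181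
end
end

section

section

set_option autoImplicit false

namespace Vale.Agent.P181

open Polynomial Finset

variable {A : Type*} [CommRing A] [Algebra ℂ A]

/-- The first-order term of the diagonal restriction of a symmetric form. -/
lemma firstSlot {k : ℕ} {F : MultilinearMap ℂ (fun _ : Fin (k + 1) => A) ℂ} (hs : IsSymm F)
    (x y : A) (h : ∀ t : ℂ, F (fun _ => x + t • y) = 0) : F.curryLeft y (fun _ => x) = 0 := by
  have h1 := first_order F (fun _ => x) (fun _ => y) h
  have h2 : ∀ i : Fin (k + 1), F (Function.update (fun _ => x) i y) =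
      F.curryLeft y (fun _ => x) := by
    intro i
    rw [MultilinearMap.curryLeft_apply, ← hs (Equiv.swap i 0) (Function.update (fun _ => x) i y)]
    congr 1
    funext j
    refine Fin.cases ?_ (fun j => ?_) j
    · rw [Equiv.swap_apply_right, Function.update_self, Fin.cons_zero]
    · rw [Fin.cons_succ]
      have h3 : Equiv.swap i 0 j.succ ≠ i := by
        intro h4
        have h5 : j.succ = Equiv.swap i 0 i := by
          rw [← Equiv.apply_eq_iff_eq (Equiv.swap i 0), h4, Equiv.swap_apply_self]
        rw [Equiv.swap_apply_left] at h5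
        exact Fin.succ_ne_zero j h5
      rw [Function.update_of_ne h3]
  rw [Finset.sum_congr rfl (fun i _ => h2 i), Finset.sum_const, Finset.card_univ,
    Fintype.card_fin, nsmul_eq_mul, mul_eq_zero] at h1
  rcases h1 with h1 | h1
  · exfalso
    rw [Nat.cast_eq_zero] at h1
    exact Nat.succ_ne_zero k h1
  · exact h1

/-- **Lemma C.** -/
theorem lemmaC {L : Submodule ℂ A} (hL : HasRoots L) {k : ℕ} (hk : 0 < k) {b : ℕ}
    (F : MultilinearMap ℂ (fun _ : Fin (k + 1) => A) ℂ) (hs : IsSymm F) (hK : IsK L b F)
    {ξ : A} (hξ : ξ ∈ L) (S : Multiset A) : (∀ x ∈ S, x ∈ L) →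
    ∀ (R : Multiset A), (∀ x ∈ R, x ∈ L) → k + S.card + R.card = b →
      ∀ h ∈ L ^ (k + S.card),
        F.curryLeft (h * R.prod) (fun _ => ξ ^ k * (S.prod * R.prod)) = 0 := by
  induction S using Multiset.induction with
  | empty =>
    intro _ R hR hb h hh
    simp only [Multiset.card_zero, add_zero, Multiset.prod_zero, one_mul] at hb hh ⊢
    let φ : A →ₗ[ℂ] ℂ := (F.toLinearMap (Fin.cons 0 (fun _ => ξ ^ k * R.prod)) 0) ∘ₗ
      (LinearMap.mulRight ℂ R.prod)
    have hφ : ∀ z, φ z = F.curryLeft (z * R.prod) (fun _ => ξ ^ k * R.prod) := by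
      intro z
      change F (Function.update (Fin.cons 0 (fun _ => ξ ^ k * R.prod)) 0 (z * R.prod)) = _
      rw [Fin.update_cons_zero]
      rfl
    have hle : L ^ k ≤ LinearMap.ker φ := by
      refine (pow_le_span_pow L k).trans ?_
      rw [Submodule.span_le]
      rintro _ ⟨ζ, hζ, rfl⟩
      simp only [SetLike.mem_coe, LinearMap.mem_ker]
      rw [hφ]
      apply firstSlot hs
      intro t
      obtain ⟨m', hm', hm'L, hm'p⟩ := hL k hk ξ hξ ζ hζ t
      have h2 := hK (m' + R) (by rw [Multiset.card_add, hm']; exact hb) (by
        intro x hx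
        rcases Multiset.mem_add.1 hx with h | h
        · exact hm'L x h
        · exact hR x h)
      rw [← h2]
      congr 1
      funext i
      rw [Multiset.prod_add, hm'p, add_mul, smul_mul_assoc]
    have h3 := hle hh
    rw [LinearMap.mem_ker, hφ] at h3
    exact h3
  | cons η S ih =>
    intro hS R hR hb h hh
    have hη : η ∈ L := hS η (Multiset.mem_cons_self η S)
    have hS' : ∀ x ∈ S, x ∈ L := fun x hx => hS x (Multiset.mem_cons_of_mem hx)
    rw [Multiset.card_cons] at hb hh
    set s := S.card with hs'
    rw [Multiset.prod_cons]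
    let φ : A →ₗ[ℂ] ℂ := (F.toLinearMap (Fin.cons 0 (fun _ => ξ ^ k * (η * S.prod * R.prod))) 0) ∘ₗ
      (LinearMap.mulRight ℂ R.prod)
    have hφ : ∀ z, φ z =
        F.curryLeft (z * R.prod) (fun _ => ξ ^ k * (η * S.prod * R.prod)) := by
      intro z
      change F (Function.update (Fin.cons 0 (fun _ => ξ ^ k * (η * S.prod * R.prod))) 0
        (z * R.prod)) = _
      rw [Fin.update_cons_zero]
      rfl
    have hle : L ^ (k + (s + 1)) ≤ LinearMap.ker φ := by
      refine (pow_le_span_pow L _).trans ?_
      rw [Submodule.span_le]
      rintro _ ⟨θ, hθ, rfl⟩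
      simp only [SetLike.mem_coe, LinearMap.mem_ker]
      rw [hφ]
      set ζ : A := η - θ with hζ
      have hζL : ζ ∈ L := L.sub_mem hη hθ
      set N : ℕ := k + (s + 1) with hN
      let u : ℂ → A := fun t => (θ + t • ζ) ^ 1 * (ξ ^ k * (S.prod * R.prod))
      have huc : ∀ _ : Fin k, IsCurve 1 u := fun _ => isCurve_pow θ ζ _ 1
      obtain ⟨p, hpd, hp⟩ := exists_poly (F.curryLeft (θ ^ N * R.prod)) (fun _ => u)
        (fun _ => 1) huc
      obtain ⟨q, -, hq⟩ := exists_poly (F.curryLeft (ζ ^ N * R.prod)) (fun _ => u)
        (fun _ => 1) huc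
      have hpq : p = C ((-1) ^ N) * X ^ N * q := by
        apply Polynomial.funext
        intro t
        have hL' : θ + t • ζ ∈ L := L.add_mem hθ (L.smul_mem _ hζL)
        have hIH := ih hS' ((θ + t • ζ) ::ₘ R) (by
          intro x hx
          rcases Multiset.mem_cons.1 hx with h | h
          · rw [h]; exact hL'
          · exact hR x h) (by rw [Multiset.card_cons]; omega)
        rw [Multiset.prod_cons] at hIH
        have hu : (fun _ : Fin k => u t) =
            fun _ => ξ ^ k * (S.prod * ((θ + t • ζ) * R.prod)) := by
          funext _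
          simp only [u]
          ring
        rw [eval_mul, eval_mul, eval_C, eval_pow, eval_X, hp, hq, hu]
        let ψ : A →ₗ[ℂ] ℂ :=
          (F.toLinearMap (Fin.cons 0 (fun _ => ξ ^ k * (S.prod * ((θ + t • ζ) * R.prod)))) 0) ∘ₗ
          (LinearMap.mulRight ℂ R.prod)
        have hψ : ∀ z, ψ z = F.curryLeft (z * R.prod)
            (fun _ => ξ ^ k * (S.prod * ((θ + t • ζ) * R.prod))) := by
          intro z
          change F (Function.update (Fin.cons 0
            (fun _ => ξ ^ k * (S.prod * ((θ + t • ζ) * R.prod)))) 0 (z * R.prod)) = _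
          rw [Fin.update_cons_zero]
          rfl
        rw [← hψ, ← hψ]
        have h3 : θ ^ N = ∑ l ∈ range (N + 1), (((N.choose l : ℂ) * (-1) ^ l * t ^ l) •
            ((θ + t • ζ) ^ (N - l) * ζ ^ l)) := by
          have h4 : θ = (-t) • ζ + (θ + t • ζ) := by
            rw [neg_smul]; abel
          calc θ ^ N = ((-t) • ζ + (θ + t • ζ)) ^ N := by rw [← h4]
            _ = _ := by
              rw [add_pow]
              apply Finset.sum_congr rfl
              intro l _
              simp only [Algebra.smul_def, map_natCast, map_pow, map_mul, map_neg, map_one]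
              rw [neg_mul, neg_pow]
              ring_nf
        rw [h3, map_sum, Finset.sum_range_succ]
        rw [Finset.sum_eq_zero, zero_add]
        · rw [map_smul, Nat.choose_self, Nat.sub_self, pow_zero, one_mul, smul_eq_mul,
            Nat.cast_one, one_mul]
        · intro l hl
          rw [Finset.mem_range] at hl
          rw [map_smul, hψ]
          have h5 : (θ + t • ζ) ^ (N - l) * ζ ^ l * R.prod =
              ((θ + t • ζ) ^ (N - l - 1) * ζ ^ l) * ((θ + t • ζ) * R.prod) := by
            have h6 : N - l = (N - l - 1) + 1 := by omega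
            conv_lhs => rw [h6, pow_succ]
            ring
          rw [h5, hIH, smul_zero]
          have h7 : k + s = (N - l - 1) + l := by omega
          rw [h7, pow_add]
          exact Submodule.mul_mem_mul (Submodule.pow_mem_pow _ hL' _)
            (Submodule.pow_mem_pow _ hζL _)
      have hdvd : X ^ N ∣ p := by
        rw [hpq, mul_comm (C _) (X ^ N), mul_assoc]
        exact Dvd.intro _ rfl
      have hp0 : p = 0 := by
        apply Polynomial.eq_zero_of_dvd_of_natDegree_lt hdvd
        rw [natDegree_X_pow]
        refine lt_of_le_of_lt hpd ?_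
        simp only [Finset.sum_const, Finset.card_univ, Fintype.card_fin, smul_eq_mul, mul_one]
        omega
      have h8 := hp 1
      rw [hp0, eval_zero] at h8
      rw [h8]
      congr 1
      funext _
      simp only [u, hζ, one_smul, add_sub_cancel, pow_one]
      ring
    have h9 := hle hh
    rw [LinearMap.mem_ker, hφ] at h9
    exact h9

lemma IsSymm.curryLeft {k : ℕ} {F : MultilinearMap ℂ (fun _ : Fin (k + 1) => A) ℂ}
    (hs : IsSymm F) (g : A) : IsSymm (F.curryLeft g) := by
  intro σ P
  rw [MultilinearMap.curryLeft_apply, MultilinearMap.curryLeft_apply,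
    ← hs (Equiv.Perm.decomposeFin.symm (0, σ)) (Fin.cons g P)]
  congr 1
  funext j
  refine Fin.cases ?_ (fun j => ?_) j
  · simp
  · simp

/-- **Core theorem.** A symmetric `a`-linear form vanishing on the diagonal at all products of
`b` linear forms vanishes on all forms of degree `b`, if `b` is at least `(a-1)^2`. -/
theorem core2 {L : Submodule ℂ A} (hL : HasRoots L) (a : ℕ) :
    ∀ (b : ℕ), (a - 1) ^ 2 ≤ b → ∀ F : MultilinearMap ℂ (fun _ : Fin a => A) ℂ,
      IsSymm F → IsK L b F → ∀ P : Fin a → A, (∀ i, P i ∈ L ^ b) → F P = 0 := by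
  induction a with
  | zero =>
    intro b _ F _ hK P _
    have h1 := hK (Multiset.replicate b 0) (by simp) (by
      intro x hx
      rw [Multiset.eq_of_mem_replicate hx]; exact L.zero_mem)
    rw [← h1]
    congr 1
    funext i
    exact i.elim0
  | succ k ih =>
    intro b hb F hs hK P hP
    rw [Nat.add_sub_cancel] at hb
    rcases Nat.eq_zero_or_pos k with hk | hk
    · subst hk
      let φ : A →ₗ[ℂ] ℂ := F.toLinearMap (fun _ => 0) 0
      have hφ : ∀ z, φ z = F (fun _ => z) := by
        intro z
        change F (Function.update (fun _ => 0) 0 z) = _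
        congr 1
        funext i
        have hi : i = 0 := Fin.ext (by have := i.2; simp)
        rw [hi, Function.update_self]
      have hle : L ^ b ≤ LinearMap.ker φ := by
        refine (pow_le_span_pow L _).trans ?_
        rw [Submodule.span_le]
        rintro _ ⟨ζ, hζ, rfl⟩
        simp only [SetLike.mem_coe, LinearMap.mem_ker]
        rw [hφ]
        have h1 := hK (Multiset.replicate b ζ) (by simp) (by
          intro x hx
          rw [Multiset.eq_of_mem_replicate hx]; exact hζ)
        simpa only [Nat.reduceAdd, Multiset.prod_replicate] using h1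
      have h2 := hle (hP 0)
      rw [LinearMap.mem_ker, hφ] at h2
      rw [← h2]
      congr 1
      funext i
      have hi : i = 0 := Fin.ext (by have := i.2; simp)
      rw [hi]
    · have hkb : k ≤ b := le_trans (by nlinarith only []) hb
      have h1 : P = Fin.cons (P 0) (fun i => P i.succ) := by
        funext i
        refine Fin.cases ?_ (fun i => ?_) i
        · rfl
        · rfl
      rw [h1, ← MultilinearMap.curryLeft_apply]
      refine claimA L (F.curryLeft (P 0)) (fun _ => b) (fun _ => k) ?_ ?_ _
        (fun i => hP i.succ)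
      · intro j
        rw [Finset.sum_const, smul_eq_mul, Fin.card_Iic]
        have := j.2
        calc ((j : ℕ) + 1) * k ≤ k * k := Nat.mul_le_mul_right _ this
          _ = k ^ 2 := (sq k).symm
          _ ≤ b := hb
      · intro ξ hξ P' hP'
        have h2 := ih (b - k) ?_ (mulArg (F.curryLeft (P 0)) (fun _ => ξ ^ k))
          ((hs.curryLeft _).mulArg_const _) ?_ P' hP'
        · exact h2
        · have h3 : (k - 1) ^ 2 + k ≤ k ^ 2 := by
            obtain ⟨m, rfl⟩ : ∃ m, k = m + 1 := ⟨k - 1, by omega⟩
            rw [Nat.add_sub_cancel]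
            nlinarith only []
          omega
        · intro m hm hmL
          rw [mulArg_apply]
          have h4 := lemmaC hL hk F hs hK hξ m hmL 0 (by simp) (by
            rw [Multiset.card_zero, hm]; omega) (P 0) (by
            have h5 : k + m.card = b := by omega
            rw [h5]; exact hP 0)
          simpa only [MultilinearMap.curryLeft_apply, Nat.succ_eq_add_one, Multiset.prod_zero, mul_one] using h4

end Vale.Agent.P181
end
end

section

section

set_option autoImplicit false

open scoped TensorProduct

namespace Vale.Agent.P181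

universe u v w

section

variable {ι : Type} {M : Type u} [AddCommGroup M] [Module ℂ M]
  {N : Type v} [AddCommGroup N] [Module ℂ N]

/-- The linear map on the symmetric power attached to a symmetric multilinear map. -/
noncomputable def symLift (f : MultilinearMap ℂ (fun _ : ι => M) N)
    (hf : ∀ (e : Equiv.Perm ι) (v : ι → M), f (fun i => v (e i)) = f v) :
    SymmetricPower ℂ ι M →ₗ[ℂ] N where
  toFun := AddCon.lift _ ((PiTensorProduct.lift f).toAddMonoidHom) (by
    rw [AddCon.addConGen_le]
    rintro _ _ ⟨e, v⟩
    simp only [AddCon.ker_rel, LinearMap.toAddMonoidHom_coe, PiTensorProduct.lift.tprod]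
    exact (hf e v).symm)
  map_add' x y := map_add _ x y
  map_smul' c x := by
    induction x using AddCon.induction_on with
    | H x => exact map_smul (PiTensorProduct.lift f) c x

lemma symLift_tprod (f : MultilinearMap ℂ (fun _ : ι => M) N)
    (hf : ∀ (e : Equiv.Perm ι) (v : ι → M), f (fun i => v (e i)) = f v) (v : ι → M) :
    symLift f hf (SymmetricPower.tprod ℂ v) = f v :=
  PiTensorProduct.lift.tprod v

end

end Vale.Agent.P181
end
end
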