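import Vale.Agent.P181.Bdl.B1

set_option autoImplicit false

open scoped TensorProduct

namespace Vale.Agent.P181

universe u

variable {M N : Type u} [AddCommGroup M] [Module ℂ M] [AddCommGroup N] [Module ℂ N]

/-- Functoriality of the symmetric power. -/
theorem exists_symMap (n : ℕ) (g : M →ₗ[ℂ] N) :
    ∃ G : Sym[ℂ]^n M →ₗ[ℂ] Sym[ℂ]^n N, ∀ m : Fin n → M,
      G (SymmetricPower.tprod ℂ m) = SymmetricPower.tprod ℂ (fun i => g (m i)) :=
  ⟨symLift ((SymmetricPower.tprod ℂ).compLinearMap (fun _ => g)) (fun e v => by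
    simp only [MultilinearMap.compLinearMap_apply]
    exact SymmetricPower.tprod_equiv e (fun i => g (v i))), fun m => symLift_tprod _ _ m⟩

/-- The map `Sym^n M → Sym^n N` induced by a linear map `g : M → N`:
it sends `m_1 ⋯ m_n` to `g m_1 ⋯ g m_n`. -/
noncomputable def symMap (n : ℕ) (g : M →ₗ[ℂ] N) : Sym[ℂ]^n M →ₗ[ℂ] Sym[ℂ]^n N :=
  (exists_symMap n g).choose

end Vale.Agent.P181
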