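import Vale.Agent.P181.MathlibUsed
import Vale.Agent.P181.Bdl.K_Bdl_K_Defs
import Vale.Agent.P181.Bdl.B1

set_option linter.all false

section

section

set_option autoImplicit false

open scoped TensorProduct

namespace Vale.Agent.P181

universe u v w

section

variable {ι : Type} {M : Type u} [AddCommGroup M] [Module ℂ M]
  {N : Type v} [AddCommGroup N] [Module ℂ N]

lemma symMap_tprod {M' N' : Type u} [AddCommGroup M'] [Module ℂ M'] [AddCommGroup N']
    [Module ℂ N'] (n : ℕ) (g : M' →ₗ[ℂ] N') (v : Fin n → M') :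
    symMap n g (SymmetricPower.tprod ℂ v) = SymmetricPower.tprod ℂ (fun i => g (v i)) :=
  (exists_symMap n g).choose_spec v

lemma sym_hom_ext {f g : SymmetricPower ℂ ι M →ₗ[ℂ] N}
    (h : ∀ v, f (SymmetricPower.tprod ℂ v) = g (SymmetricPower.tprod ℂ v)) : f = g := by
  apply LinearMap.ext_on (SymmetricPower.span_tprod_eq_top ℂ ι M)
  rintro _ ⟨v, rfl⟩
  exact h v

variable [Fintype ι]

lemma multilinear_eq_zero_of_span {κ : Type} [Fintype κ] (Φ : MultilinearMap ℂ (fun _ : κ => M) N)
    (S : Set M) (hS : Submodule.span ℂ S = ⊤)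
    (h : ∀ w : κ → M, (∀ i, w i ∈ S) → Φ w = 0) (w : κ → M) : Φ w = 0 := by
  classical
  have h1 : ∀ i, ∃ l : S →₀ ℂ, Finsupp.linearCombination ℂ (Subtype.val : S → M) l = w i := by
    intro i
    rw [← Finsupp.mem_span_iff_linearCombination, hS]
    trivial
  choose l hl using h1
  have h2 : w = fun i => ∑ r ∈ (l i).support, (l i r) • (r : M) := by
    funext i
    rw [← hl i, Finsupp.linearCombination_apply, Finsupp.sum]
  rw [h2, MultilinearMap.map_sum_finset]
  apply Finset.sum_eq_zero
  intro r _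
  rw [MultilinearMap.map_smul_univ, h _ (fun i => (r i).2), smul_zero]

/-- symmetrization, as a multilinear map -/
noncomputable def symSumMul (ι : Type) [Fintype ι] (M : Type u) [AddCommGroup M] [Module ℂ M] :
    MultilinearMap ℂ (fun _ : ι => M) (⨂[ℂ] _ : ι, M) :=
  letI := Classical.decEq ι
  ∑ e : Equiv.Perm ι, (PiTensorProduct.tprod ℂ).domDomCongr e

lemma symSumMul_apply [DecidableEq ι] (v : ι → M) :
    symSumMul ι M v = ∑ e : Equiv.Perm ι, PiTensorProduct.tprod ℂ (fun i => v (e i)) := by
  have h : (inferInstance : DecidableEq ι) = Classical.decEq ι := Subsingleton.elim _ _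
  subst h
  rw [symSumMul]
  simp only [sum_apply, MultilinearMap.domDomCongr_apply]

lemma symSumMul_symm (e : Equiv.Perm ι) (v : ι → M) :
    symSumMul ι M (fun i => v (e i)) = symSumMul ι M v := by
  classical
  rw [symSumMul_apply, symSumMul_apply]
  exact Equiv.sum_comp (Equiv.mulLeft e)
    (fun e' : Equiv.Perm ι => PiTensorProduct.tprod ℂ (fun i => v (e' i)))

/-- The symmetrization map `Sym^ι M → ⨂^ι M`. -/
noncomputable def symSum (ι : Type) [Fintype ι] (M : Type u) [AddCommGroup M] [Module ℂ M] :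
    SymmetricPower ℂ ι M →ₗ[ℂ] (⨂[ℂ] _ : ι, M) :=
  symLift (symSumMul ι M) symSumMul_symm

lemma symSum_tprod [DecidableEq ι] (v : ι → M) :
    symSum ι M (SymmetricPower.tprod ℂ v) =
      ∑ e : Equiv.Perm ι, PiTensorProduct.tprod ℂ (fun i => v (e i)) := by
  rw [symSum, symLift_tprod, symSumMul_apply]

lemma symSum_injective : Function.Injective (symSum ι M) := by
  classical
  have h : (SymmetricPower.mk ℂ ι M) ∘ₗ (symSum ι M) =
      ((Fintype.card (Equiv.Perm ι) : ℕ) : ℂ) • LinearMap.id := by
    apply sym_hom_ext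
    intro v
    rw [LinearMap.comp_apply, symSum_tprod, map_sum, LinearMap.smul_apply, LinearMap.id_apply]
    have h1 : ∀ e : Equiv.Perm ι, SymmetricPower.mk ℂ ι M
        (PiTensorProduct.tprod ℂ (fun i => v (e i))) = SymmetricPower.tprod ℂ v := by
      intro e
      exact SymmetricPower.tprod_equiv e v
    rw [Finset.sum_congr rfl (fun e _ => h1 e), Finset.sum_const, Finset.card_univ,
      Nat.cast_smul_eq_nsmul]
  intro x y hxy
  have h2 := congrArg (fun g => g x - g y) h
  simp only [LinearMap.comp_apply, LinearMap.smul_apply, LinearMap.id_apply] at h2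
  rw [hxy, sub_self, ← smul_sub] at h2
  have h3 : ((Fintype.card (Equiv.Perm ι) : ℕ) : ℂ) ≠ 0 := by
    exact_mod_cast Fintype.card_ne_zero
  have h4 := (smul_eq_zero.1 h2.symm).resolve_left h3
  exact sub_eq_zero.1 h4

instance [Module.Finite ℂ M] : Module.Finite ℂ (SymmetricPower ℂ ι M) :=
  Module.Finite.of_surjective (SymmetricPower.mk ℂ ι M)
    (LinearMap.range_eq_top.1 (SymmetricPower.range_mk ℂ ι M))

/-- Evaluate an element of a symmetric power at a family of functionals. -/
noncomputable def symEval (lam : ι → Module.Dual ℂ M) : SymmetricPower ℂ ι M →ₗ[ℂ] ℂ :=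
  (PiTensorProduct.dualDistrib (PiTensorProduct.tprod ℂ lam)) ∘ₗ (symSum ι M)

lemma symEval_tprod [DecidableEq ι] (lam : ι → Module.Dual ℂ M) (v : ι → M) :
    symEval lam (SymmetricPower.tprod ℂ v) = ∑ e : Equiv.Perm ι, ∏ i, lam i (v (e i)) := by
  rw [symEval, LinearMap.comp_apply, symSum_tprod, map_sum]
  apply Finset.sum_congr rfl
  intro e _
  exact PiTensorProduct.dualDistrib_apply _ _

lemma symEval_separates [Module.Finite ℂ M] (S : Set (Module.Dual ℂ M))
    (hS : Submodule.span ℂ S = ⊤) (x : SymmetricPower ℂ ι M)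
    (hx : ∀ lam : ι → Module.Dual ℂ M, (∀ i, lam i ∈ S) → symEval lam x = 0) : x = 0 := by
  classical
  apply symSum_injective
  rw [map_zero, ← Module.forall_dual_apply_eq_zero_iff ℂ]
  intro Λ
  obtain ⟨y, rfl⟩ := (PiTensorProduct.dualDistribEquiv (R := ℂ) (M := fun _ : ι => M)).surjective Λ
  have hy : y ∈ Submodule.span ℂ
      (Set.range (PiTensorProduct.tprod ℂ (s := fun _ : ι => Module.Dual ℂ M))) := by
    rw [PiTensorProduct.span_tprod_eq_top]; trivial
  induction hy using Submodule.span_induction with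
  | mem z hz =>
    obtain ⟨f, rfl⟩ := hz
    let Φ : MultilinearMap ℂ (fun _ : ι => Module.Dual ℂ M) ℂ :=
      ((Module.Dual.eval ℂ (⨂[ℂ] _ : ι, M) (symSum ι M x)) ∘ₗ
        (PiTensorProduct.dualDistrib (R := ℂ) (M := fun _ : ι => M))).compMultilinearMap
          (PiTensorProduct.tprod ℂ)
    have h1 : Φ f = 0 := by
      apply multilinear_eq_zero_of_span Φ S hS
      intro w hw
      exact hx w hw
    exact h1
  | zero => rw [map_zero]; rfl
  | add z z' _ _ h h' => rw [map_add, LinearMap.add_apply, h, h', add_zero]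
  | smul c z _ h => rw [map_smul, LinearMap.smul_apply, h, smul_zero]

/-- Multilinear maps in rows of vectors induce multilinear maps in tensors. -/
lemma exists_rowLift [Module.Finite ℂ M] {κ : Type} [Fintype κ]
    (f : MultilinearMap ℂ (fun _ : κ × ι => M) N) :
    ∃ g : MultilinearMap ℂ (fun _ : κ => (⨂[ℂ] _ : ι, M)) N, ∀ v : κ → ι → M,
      g (fun i => PiTensorProduct.tprod ℂ (v i)) = f (fun p => v p.1 p.2) := by
  classical
  let e := Module.finBasis ℂ M
  let bt := Basis.piTensorProduct (fun _ : ι => e)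
  refine ⟨∑ J : κ → ι → Fin (Module.finrank ℂ M),
    ((MultilinearMap.mkPiAlgebra ℂ κ ℂ).compLinearMap (fun i => bt.coord (J i))).smulRight
      (f (fun p => e (J p.1 p.2))), ?_⟩
  intro v
  have h1 : (fun p : κ × ι => v p.1 p.2) = fun p => ∑ k, (e.repr (v p.1 p.2) k) • e k := by
    funext p
    rw [e.sum_repr]
  rw [h1, MultilinearMap.map_sum]
  simp only [sum_apply, MultilinearMap.smulRight_apply,
    MultilinearMap.compLinearMap_apply, MultilinearMap.mkPiAlgebra_apply]
  rw [← (Equiv.curry κ ι (Fin (Module.finrank ℂ M))).sum_comp]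
  apply Finset.sum_congr rfl
  intro J _
  rw [MultilinearMap.map_smul_univ, Fintype.prod_prod_type]
  congr 1
  apply Finset.prod_congr rfl
  intro i _
  rw [Module.Basis.coord_apply]
  exact Basis.piTensorProduct_repr_tprod_apply _ _ _

end

end Vale.Agent.P181
end
end

section

section

set_option autoImplicit false

open scoped TensorProduct

namespace Vale.Agent.P181

universe u

section

variable {V : Type u} [AddCommGroup V] [Module ℂ V]

/-- The product along columns, as a multilinear map of `a * b` vectors. -/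
noncomputable def colMul (a b : ℕ) (V : Type u) [AddCommGroup V] [Module ℂ V] :
    MultilinearMap ℂ (fun _ : Fin a × Fin b => V) (Sym[ℂ]^b (Sym[ℂ]^a V)) where
  toFun v := SymmetricPower.tprod ℂ (fun j => SymmetricPower.tprod ℂ (fun i => v (i, j)))
  map_update_add' := by
    intro _ v p x y
    have key : ∀ z : V, (fun j => SymmetricPower.tprod ℂ (fun i => Function.update v p z (i, j))) =
        Function.update (fun j => SymmetricPower.tprod ℂ (fun i => v (i, j))) p.2
          (SymmetricPower.tprod ℂ (Function.update (fun i => v (i, p.2)) p.1 z)) := by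
      intro z
      funext j
      by_cases hj : j = p.2
      · subst hj
        rw [Function.update_self]
        congr 1
        funext i
        by_cases hi : i = p.1
        · subst hi
          simp
        · rw [Function.update_of_ne hi, Function.update_of_ne]
          intro h
          exact hi (congrArg Prod.fst h)
      · rw [Function.update_of_ne hj]
        congr 1
        funext i
        rw [Function.update_of_ne]
        intro h
        exact hj (congrArg Prod.snd h)
    rw [key, key, key, MultilinearMap.map_update_add, MultilinearMap.map_update_add]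
  map_update_smul' := by
    intro _ v p c x
    have key : ∀ z : V, (fun j => SymmetricPower.tprod ℂ (fun i => Function.update v p z (i, j))) =
        Function.update (fun j => SymmetricPower.tprod ℂ (fun i => v (i, j))) p.2
          (SymmetricPower.tprod ℂ (Function.update (fun i => v (i, p.2)) p.1 z)) := by
      intro z
      funext j
      by_cases hj : j = p.2
      · subst hj
        rw [Function.update_self]
        congr 1
        funext i
        by_cases hi : i = p.1
        · subst hi
          simp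
        · rw [Function.update_of_ne hi, Function.update_of_ne]
          intro h
          exact hi (congrArg Prod.fst h)
      · rw [Function.update_of_ne hj]
        congr 1
        funext i
        rw [Function.update_of_ne]
        intro h
        exact hj (congrArg Prod.snd h)
    rw [key, key, MultilinearMap.map_update_smul, MultilinearMap.map_update_smul]

variable [FiniteDimensional ℂ V]

/-- The product along columns as a multilinear map of tensors (the rows). -/
noncomputable def rowLift (a b : ℕ) (V : Type u) [AddCommGroup V] [Module ℂ V]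
    [FiniteDimensional ℂ V] :
    MultilinearMap ℂ (fun _ : Fin a => (⨂[ℂ] _ : Fin b, V)) (Sym[ℂ]^b (Sym[ℂ]^a V)) :=
  (exists_rowLift (colMul a b V)).choose

lemma rowLift_tprod (a b : ℕ) (v : Fin a → Fin b → V) :
    rowLift a b V (fun i => PiTensorProduct.tprod ℂ (v i)) =
      SymmetricPower.tprod ℂ (fun j => SymmetricPower.tprod ℂ (fun i => v i j)) :=
  (exists_rowLift (colMul a b V)).choose_spec v

lemma rowLift_symm (a b : ℕ) (e : Equiv.Perm (Fin a)) (t : Fin a → (⨂[ℂ] _ : Fin b, V)) :
    rowLift a b V (fun i => t (e i)) = rowLift a b V t := by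
  have h : (rowLift a b V).domDomCongr e - rowLift a b V = 0 := by
    ext1 t
    apply multilinear_eq_zero_of_span _ _
      (PiTensorProduct.span_tprod_eq_top (R := ℂ) (s := fun _ : Fin b => V))
    intro w hw
    choose v hv using hw
    have hw' : w = fun i => PiTensorProduct.tprod ℂ (v i) := by
      funext i; exact (hv i).symm
    subst hw'
    rw [sub_apply, MultilinearMap.domDomCongr_apply, rowLift_tprod,
      rowLift_tprod]
    rw [sub_eq_zero]
    congr 1
    funext j
    exact SymmetricPower.tprod_equiv e (fun i => v i j)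
  have h1 := congrArg (fun g => g t) h
  simp only [sub_apply, MultilinearMap.domDomCongr_apply,
    zero_apply, sub_eq_zero] at h1
  exact h1

/-- The canonical (Foulkes-Howe) map. -/
noncomputable def foulkesHowe (a b : ℕ) (V : Type u) [AddCommGroup V] [Module ℂ V]
    [FiniteDimensional ℂ V] : Sym[ℂ]^a (Sym[ℂ]^b V) →ₗ[ℂ] Sym[ℂ]^b (Sym[ℂ]^a V) :=
  symLift ((rowLift a b V).compLinearMap (fun _ => symSum (Fin b) V)) (fun e v => by
    rw [MultilinearMap.compLinearMap_apply, MultilinearMap.compLinearMap_apply]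
    exact rowLift_symm a b e (fun i => symSum (Fin b) V (v i)))

lemma foulkesHowe_tprod (a b : ℕ) (v : Fin a → Fin b → V) :
    foulkesHowe a b V (SymmetricPower.tprod ℂ (fun i => SymmetricPower.tprod ℂ (v i))) =
      ∑ σ : Fin a → Equiv.Perm (Fin b), SymmetricPower.tprod ℂ (fun j =>
        SymmetricPower.tprod ℂ (fun i => v i (σ i j))) := by
  rw [foulkesHowe, symLift_tprod, MultilinearMap.compLinearMap_apply]
  simp only [symSum_tprod]
  rw [MultilinearMap.map_sum]
  apply Finset.sum_congr rfl
  intro σ _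
  exact rowLift_tprod a b (fun i j => v i (σ i j))

omit [FiniteDimensional ℂ V] in
lemma span_pure (a b : ℕ) : Submodule.span ℂ (Set.range (fun v : Fin a → Fin b → V =>
    SymmetricPower.tprod ℂ (fun i => SymmetricPower.tprod ℂ (v i)))) = ⊤ := by
  set S := Submodule.span ℂ (Set.range (fun v : Fin a → Fin b → V =>
    SymmetricPower.tprod ℂ (fun i => SymmetricPower.tprod ℂ (v i)))) with hS
  rw [eq_top_iff, ← SymmetricPower.span_tprod_eq_top, Submodule.span_le]
  rintro _ ⟨q, rfl⟩
  rw [SetLike.mem_coe, ← Submodule.Quotient.mk_eq_zero S]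
  have h := multilinear_eq_zero_of_span
    (S.mkQ.compMultilinearMap (SymmetricPower.tprod ℂ (ι := Fin a) (M := Sym[ℂ]^b V)))
    (Set.range (SymmetricPower.tprod ℂ (ι := Fin b) (M := V)))
    (SymmetricPower.span_tprod_eq_top ℂ (Fin b) V) ?_ q
  · exact h
  · intro w hw
    choose v hv using hw
    have hw' : w = fun i => SymmetricPower.tprod ℂ (v i) := by
      funext i; exact (hv i).symm
    subst hw'
    change S.mkQ _ = 0
    rw [Submodule.mkQ_apply, Submodule.Quotient.mk_eq_zero]
    exact Submodule.subset_span ⟨v, rfl⟩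

omit [FiniteDimensional ℂ V] in
lemma pure_hom_ext {a b : ℕ} {N : Type*} [AddCommGroup N] [Module ℂ N]
    {f g : Sym[ℂ]^a (Sym[ℂ]^b V) →ₗ[ℂ] N}
    (h : ∀ v : Fin a → Fin b → V,
      f (SymmetricPower.tprod ℂ (fun i => SymmetricPower.tprod ℂ (v i))) =
      g (SymmetricPower.tprod ℂ (fun i => SymmetricPower.tprod ℂ (v i)))) : f = g := by
  apply LinearMap.ext_on (span_pure a b)
  rintro _ ⟨v, rfl⟩
  exact h v

lemma foulkesHowe_equivariant (a b : ℕ) (g : V →ₗ[ℂ] V) :
    foulkesHowe a b V ∘ₗ symMap a (symMap b g) = symMap b (symMap a g) ∘ₗ foulkesHowe a b V := by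
  apply pure_hom_ext
  intro v
  rw [LinearMap.comp_apply, LinearMap.comp_apply, symMap_tprod, foulkesHowe_tprod, map_sum]
  have h1 : (fun i => symMap b g (SymmetricPower.tprod ℂ (v i))) =
      fun i => SymmetricPower.tprod ℂ (fun j => g (v i j)) := by
    funext i; rw [symMap_tprod]
  rw [h1, foulkesHowe_tprod a b (fun i j => g (v i j))]
  apply Finset.sum_congr rfl
  intro σ _
  rw [symMap_tprod]
  congr 1
  funext j
  rw [symMap_tprod]

/-- Linear functionals as functions. -/
def linFun (V : Type u) [AddCommGroup V] [Module ℂ V] : Submodule ℂ (V → ℂ) where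
  carrier := {f | ∃ ξ : Module.Dual ℂ V, f = fun v => ξ v}
  add_mem' := by
    rintro _ _ ⟨ξ, rfl⟩ ⟨η, rfl⟩
    exact ⟨ξ + η, rfl⟩
  zero_mem' := ⟨0, rfl⟩
  smul_mem' := by
    rintro c _ ⟨ξ, rfl⟩
    exact ⟨c • ξ, rfl⟩

/-- The alternating sum of evaluations at partial sums (Ryser functional). -/
noncomputable def ryser {b : ℕ} (w : Fin b → V) : (V → ℂ) →ₗ[ℂ] ℂ :=
  ∑ T : Finset (Fin b), ((-1 : ℂ) ^ (Tᶜ).card) • LinearMap.proj (∑ i ∈ T, w i)

omit [Module ℂ V] [FiniteDimensional ℂ V] in
lemma ryser_apply {b : ℕ} (w : Fin b → V) (f : V → ℂ) :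
    ryser w f = ∑ T : Finset (Fin b), (-1 : ℂ) ^ (Tᶜ).card * f (∑ i ∈ T, w i) := by
  simp only [ryser, LinearMap.sum_apply, LinearMap.smul_apply, LinearMap.coe_proj, Function.eval, smul_eq_mul]

lemma sum_filter_neg_one_pow {b : ℕ} (U : Finset (Fin b)) :
    ∑ T : Finset (Fin b), (if U ⊆ T then (-1 : ℂ) ^ (Tᶜ).card else 0) =
      if U = Finset.univ then 1 else 0 := by
  rw [← Finset.sum_filter]
  have h1 : ∑ T ∈ Finset.univ.filter (fun T : Finset (Fin b) => U ⊆ T), (-1 : ℂ) ^ (Tᶜ).card =
      ∑ T' ∈ (Uᶜ).powerset, (-1 : ℂ) ^ T'.card := by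
    apply Finset.sum_nbij' (fun T => Tᶜ) (fun T => Tᶜ)
    · intro T hT
      rw [Finset.mem_filter] at hT
      rw [Finset.mem_powerset]
      exact Finset.compl_subset_compl.2 hT.2
    · intro T hT
      rw [Finset.mem_powerset] at hT
      rw [Finset.mem_filter]
      refine ⟨Finset.mem_univ _, ?_⟩
      rw [← Finset.compl_subset_compl, compl_compl]
      exact hT
    · intro T _; exact compl_compl T
    · intro T _; exact compl_compl T
    · intro T _; rfl
  rw [h1]
  have h2 := Finset.sum_powerset_neg_one_pow_card (x := Uᶜ)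
  have h3 : ∑ T' ∈ (Uᶜ).powerset, (-1 : ℂ) ^ T'.card =
      ((∑ T' ∈ (Uᶜ).powerset, (-1 : ℤ) ^ T'.card : ℤ) : ℂ) := by
    push_cast; rfl
  rw [h3, h2]
  simp only [Finset.compl_eq_empty_iff]
  split_ifs <;> simp

omit [FiniteDimensional ℂ V] in
lemma ryser_prod {b : ℕ} (w : Fin b → V) (ξ : Fin b → Module.Dual ℂ V) :
    ryser w (∏ j, (fun v => ξ j v)) = ∑ e : Equiv.Perm (Fin b), ∏ j, ξ j (w (e j)) := by
  rw [ryser_apply]
  have h1 : ∀ T : Finset (Fin b), (∏ j, (fun v => ξ j v)) (∑ i ∈ T, w i) =
      ∑ p : Fin b → Fin b, if (Finset.univ.image p) ⊆ T then ∏ j, ξ j (w (p j)) else 0 := by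
    intro T
    rw [Finset.prod_apply]
    simp only [map_sum]
    rw [Finset.prod_univ_sum, ← Finset.sum_filter]
    apply Finset.sum_congr _ (fun _ _ => rfl)
    ext p
    simp only [Fintype.mem_piFinset, Finset.mem_filter, Finset.mem_univ, true_and,
      Finset.image_subset_iff, forall_true_left]
  simp only [h1, Finset.mul_sum]
  rw [Finset.sum_comm]
  have h2 : ∀ p : Fin b → Fin b, ∑ T : Finset (Fin b), (-1 : ℂ) ^ (Tᶜ).card *
      (if (Finset.univ.image p) ⊆ T then ∏ j, ξ j (w (p j)) else 0) =
      if Function.Bijective p then ∏ j, ξ j (w (p j)) else 0 := by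
    intro p
    have h3 : ∀ T : Finset (Fin b), (-1 : ℂ) ^ (Tᶜ).card *
        (if (Finset.univ.image p) ⊆ T then ∏ j, ξ j (w (p j)) else 0) =
        (if (Finset.univ.image p) ⊆ T then (-1 : ℂ) ^ (Tᶜ).card else 0) *
          ∏ j, ξ j (w (p j)) := by
      intro T
      split_ifs <;> ring
    rw [Finset.sum_congr rfl (fun T _ => h3 T), ← Finset.sum_mul, sum_filter_neg_one_pow]
    have h4 : (Finset.univ.image p = Finset.univ) ↔ Function.Bijective p := by
      rw [← Finite.surjective_iff_bijective]
      simp only [Finset.eq_univ_iff_forall, Finset.mem_image, Finset.mem_univ, true_and, Function.Surjective]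
    by_cases h : Function.Bijective p
    · rw [if_pos h, if_pos (h4.2 h), one_mul]
    · rw [if_neg h, if_neg (fun hh => h (h4.1 hh)), zero_mul]
  rw [Finset.sum_congr rfl (fun p _ => h2 p), ← Finset.sum_filter]
  symm
  apply Finset.sum_bij (fun (e : Equiv.Perm (Fin b)) _ => (⇑e : Fin b → Fin b))
  · intro e _
    rw [Finset.mem_filter]
    exact ⟨Finset.mem_univ _, e.bijective⟩
  · intro e _ e' _ h
    exact Equiv.coe_fn_injective h
  · intro p hp
    rw [Finset.mem_filter] at hp
    exact ⟨Equiv.ofBijective p hp.2, Finset.mem_univ _, rfl⟩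
  · intro e _; rfl

lemma exists_fin_map {α : Type*} (m : Multiset α) (b : ℕ) (hm : m.card = b) :
    ∃ f : Fin b → α, m = Multiset.map f Finset.univ.val := by
  obtain ⟨L, rfl⟩ : ∃ L : List α, (L : Multiset α) = m := Quot.exists_rep m
  rw [Multiset.coe_card] at hm
  subst hm
  refine ⟨L.get, ?_⟩
  rw [Fin.univ_val_map, List.ofFn_get]

lemma prod_mem_pow {A : Type*} [CommRing A] [Algebra ℂ A] (L : Submodule ℂ A) {b : ℕ}
    (f : Fin b → A) (h : ∀ j, f j ∈ L) : ∏ j, f j ∈ L ^ b := by
  induction b with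
  | zero =>
    rw [Fin.prod_univ_zero, pow_zero, Submodule.mem_one]
    exact ⟨1, map_one _⟩
  | succ b ih =>
    rw [Fin.prod_univ_succ, pow_succ']
    exact Submodule.mul_mem_mul (h 0) (ih _ (fun j => h _))

/-- The `a`-linear form on functions attached to `a` rows of `b` vectors. -/
noncomputable def rowForm {a b : ℕ} (v : Fin a → Fin b → V) :
    MultilinearMap ℂ (fun _ : Fin a => (V → ℂ)) ℂ :=
  ∑ σ : Equiv.Perm (Fin a),
    (MultilinearMap.mkPiAlgebra ℂ (Fin a) ℂ).compLinearMap (fun i => ryser (v (σ i)))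

omit [Module ℂ V] [FiniteDimensional ℂ V] in
lemma rowForm_apply {a b : ℕ} (v : Fin a → Fin b → V) (P : Fin a → (V → ℂ)) :
    rowForm v P = ∑ σ : Equiv.Perm (Fin a), ∏ i, ryser (v (σ i)) (P i) := by
  simp only [rowForm, sum_apply, MultilinearMap.compLinearMap_apply, MultilinearMap.mkPiAlgebra_apply]

omit [Module ℂ V] [FiniteDimensional ℂ V] in
lemma rowForm_symm {a b : ℕ} (v : Fin a → Fin b → V) : IsSymm (rowForm v) := by
  intro τ P
  rw [rowForm_apply, rowForm_apply]
  rw [← Equiv.sum_comp (Equiv.mulRight τ)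
    (fun σ : Equiv.Perm (Fin a) => ∏ i, ryser (v (σ i)) (P (τ i)))]
  apply Finset.sum_congr rfl
  intro σ _
  rw [← Equiv.prod_comp τ (fun i => ryser (v (σ i)) (P i))]
  rfl

/-- The functional on `Sym^a V` evaluating at a point of the dual space. -/
noncomputable def evalPow (a : ℕ) (ξ : Module.Dual ℂ V) : (Sym[ℂ]^a V) →ₗ[ℂ] ℂ :=
  symLift ((MultilinearMap.mkPiAlgebra ℂ (Fin a) ℂ).compLinearMap (fun _ => ξ)) (fun e v => by
    simp only [MultilinearMap.compLinearMap_apply, MultilinearMap.mkPiAlgebra_apply]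
    exact Equiv.prod_comp e (fun i => ξ (v i)))

omit [FiniteDimensional ℂ V] in
lemma evalPow_tprod (a : ℕ) (ξ : Module.Dual ℂ V) (w : Fin a → V) :
    evalPow a ξ (SymmetricPower.tprod ℂ w) = ∏ i, ξ (w i) := by
  rw [evalPow, symLift_tprod]
  simp only [MultilinearMap.compLinearMap_apply, MultilinearMap.mkPiAlgebra_apply]

lemma symEval_foulkesHowe {a b : ℕ} (v : Fin a → Fin b → V) (ξ : Fin b → Module.Dual ℂ V) :
    symEval (fun j => evalPow a (ξ j)) (foulkesHowe a b V
      (SymmetricPower.tprod ℂ (fun i => SymmetricPower.tprod ℂ (v i)))) =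
    (Fintype.card (Equiv.Perm (Fin b)) : ℂ) *
      ∏ i, ryser (v i) (∏ j, (fun v => ξ j v)) := by
  rw [foulkesHowe_tprod, map_sum]
  simp only [symEval_tprod, evalPow_tprod, ryser_prod]
  rw [Finset.sum_comm]
  have h : ∀ e : Equiv.Perm (Fin b), ∑ σ : Fin a → Equiv.Perm (Fin b),
      ∏ j, ∏ i, ξ j (v i (σ i (e j))) = ∏ i, ∑ τ : Equiv.Perm (Fin b), ∏ j, ξ j (v i (τ j)) := by
    intro e
    rw [Finset.prod_univ_sum, Fintype.piFinset_univ]
    rw [← (Equiv.piCongrRight (fun _ : Fin a => Equiv.mulRight e)).sum_comp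
      (fun σ => ∏ i, ∏ j, ξ j (v i (σ i j)))]
    apply Finset.sum_congr rfl
    intro σ _
    rw [Finset.prod_comm]
    rfl
  rw [Finset.sum_congr rfl (fun e _ => h e), Finset.sum_const, nsmul_eq_mul, Finset.card_univ]

theorem foulkesHowe_injective {a b : ℕ} (hab : (a - 1) ^ 2 ≤ b) :
    Function.Injective (foulkesHowe a b V) := by
  classical
  rw [injective_iff_map_eq_zero]
  intro x hx
  have hxs : x ∈ Submodule.span ℂ (Set.range (fun v : Fin a → Fin b → V =>
      SymmetricPower.tprod ℂ (fun i => SymmetricPower.tprod ℂ (v i)))) := by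
    rw [span_pure]; trivial
  rw [Finsupp.mem_span_range_iff_exists_finsupp] at hxs
  obtain ⟨l, hl⟩ := hxs
  rw [Finsupp.sum] at hl
  let F : MultilinearMap ℂ (fun _ : Fin a => (V → ℂ)) ℂ := ∑ v ∈ l.support, l v • rowForm v
  have hF : ∀ P, F P = ∑ v ∈ l.support, l v * ∑ σ : Equiv.Perm (Fin a),
      ∏ i, ryser (v (σ i)) (P i) := by
    intro P
    simp only [sum_apply, smul_apply, rowForm_apply, smul_eq_mul, F]
  have hsymm : IsSymm F := by
    intro τ P
    simp only [F, sum_apply, smul_apply]
    apply Finset.sum_congr rfl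
    intro v _
    rw [rowForm_symm v τ P]
  have hK : IsK (linFun V) b F := by
    intro m hm hmL
    obtain ⟨f, hf⟩ := exists_fin_map m b hm
    have hfL : ∀ j, ∃ ξ : Module.Dual ℂ V, f j = fun v => ξ v := by
      intro j
      apply hmL
      rw [hf]
      exact Multiset.mem_map_of_mem f (Finset.mem_univ_val j)
    choose ξ hξ using hfL
    have hmp : m.prod = ∏ j, (fun v => ξ j v) := by
      rw [hf]
      exact Finset.prod_congr rfl (fun j _ => hξ j)
    have h1 : symEval (fun j => evalPow a (ξ j)) (foulkesHowe a b V x) = 0 := by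
      rw [hx, map_zero]
    rw [← hl, map_sum, map_sum] at h1
    simp only [map_smul, symEval_foulkesHowe, smul_eq_mul] at h1
    rw [hF, hmp]
    have h2 : ∀ v : Fin a → Fin b → V, ∑ σ : Equiv.Perm (Fin a),
        ∏ i, ryser (v (σ i)) (∏ j, (fun v => ξ j v)) =
        (Fintype.card (Equiv.Perm (Fin a)) : ℂ) *
          ∏ i, ryser (v i) (∏ j, (fun v => ξ j v)) := by
      intro v
      have h3 : ∀ σ : Equiv.Perm (Fin a), ∏ i, ryser (v (σ i)) (∏ j, (fun v => ξ j v)) =
          ∏ i, ryser (v i) (∏ j, (fun v => ξ j v)) := fun σ =>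
        Equiv.prod_comp σ (fun i => ryser (v i) (∏ j, (fun v => ξ j v)))
      rw [Finset.sum_congr rfl (fun σ _ => h3 σ), Finset.sum_const, nsmul_eq_mul,
        Finset.card_univ]
    simp only [h2]
    have h4 : (Fintype.card (Equiv.Perm (Fin b)) : ℂ) ≠ 0 := by
      exact_mod_cast Fintype.card_ne_zero
    have h5 : (Fintype.card (Equiv.Perm (Fin b)) : ℂ) *
        ∑ v ∈ l.support, l v * ∏ i, ryser (v i) (∏ j, (fun v => ξ j v)) = 0 := by
      rw [← h1, Finset.mul_sum]
      apply Finset.sum_congr rfl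
      intro v _
      ring
    have h6 := (mul_eq_zero.1 h5).resolve_left h4
    calc _ = (Fintype.card (Equiv.Perm (Fin a)) : ℂ) *
        ∑ v ∈ l.support, l v * ∏ i, ryser (v i) (∏ j, (fun v => ξ j v)) := by
          rw [Finset.mul_sum]
          apply Finset.sum_congr rfl
          intro v _
          ring
      _ = 0 := by rw [h6, mul_zero]
  have hcore := core2 (hasRoots_of_forall_field (linFun V)) a b hab F hsymm hK
  have hspan : Submodule.span ℂ (Set.range (fun ξ : Fin b → Module.Dual ℂ V =>
      (symEval ξ : (Sym[ℂ]^b V) →ₗ[ℂ] ℂ))) = (⊤ : Submodule ℂ (Module.Dual ℂ (Sym[ℂ]^b V))) := by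
    set W := Submodule.span ℂ (Set.range (fun ξ : Fin b → Module.Dual ℂ V =>
      (symEval ξ : (Sym[ℂ]^b V) →ₗ[ℂ] ℂ))) with hW
    have h1 : W.dualCoannihilator = ⊥ := by
      rw [eq_bot_iff]
      intro y hy
      rw [Submodule.mem_dualCoannihilator] at hy
      rw [Submodule.mem_bot]
      apply symEval_separates Set.univ Submodule.span_univ
      intro lam _
      exact hy _ (Submodule.subset_span ⟨lam, rfl⟩)
    have h2 := Subspace.dualCoannihilator_dualAnnihilator_eq (W := W)
    rw [h1] at h2
    rw [← h2]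
    exact Submodule.dualAnnihilator_bot
  apply symEval_separates _ hspan
  intro lam hlam
  choose ξ hξ using hlam
  have hlam' : lam = fun i => symEval (ξ i) := by
    funext i; exact (hξ i).symm
  rw [hlam', ← hl, map_sum]
  have h7 := hcore (fun i => ∏ j, (fun v => ξ i j v)) (by
    intro i
    exact prod_mem_pow _ _ (fun j => ⟨ξ i j, rfl⟩))
  rw [← h7, hF]
  apply Finset.sum_congr rfl
  intro v _
  rw [map_smul, smul_eq_mul, symEval_tprod]
  congr 1
  apply Finset.sum_congr rfl
  intro σ _
  apply Finset.prod_congr rfl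
  intro i _
  rw [symEval_tprod, ryser_prod]

end

end Vale.Agent.P181
end
end
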